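import Vale.Agent.P275OP.Pkg
import Vale.Agent.P275Z.Univ
import Vale.Agent.P275S.ThZ
import Vale.Agent.P275MM.Maps
import Vale.Agent.P275CC.Fl
import Vale.Agent.P275HE.TyY
import Vale.Agent.P275XS.Hit

/-!
# P275, block OI: the spaces, maps and classes of the package, and the blocks
-/

open CategoryTheory Topology Set Function
open Vale.Agent.P275GC (At)
open Vale.Agent.P275NA (Cy)
open Vale.Agent.P275MO Vale.Agent.P275Z Vale.Agent.P275MM
open Vale.Agent.P275MB (cont_x)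
open Vale.Agent.P275HE (PHI phi o0 Fb Om)
open Vale.Agent.P275HN (hY M0 Sb)
open Vale.Agent.P275ST (XB Cpt deg)
open Vale.Agent.P275XS (XH toH)
open P275S (H Hd K KG pb act pullI)
open P275CC (Th LB Nc)
open P275OP (LHB)

noncomputable section

set_option backward.isDefEq.respectTransparency false
set_option linter.unusedSectionVars false

namespace Vale.Agent.P275OI

section sub

variable {X : Type} [TopologicalSpace X] {Y : TopCat.{0}}

/-- a subset as a space -/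
abbrev sb (s : Set X) : TopCat.{0} := TopCat.of s

/-- the inclusion of a subset -/
def inc (s : Set X) : sb s ⟶ TopCat.of X := TopCat.ofHom (P275CC.inc s)

/-- a map into a subset -/
def cod (f : Y ⟶ TopCat.of X) (s : Set X) (h : ∀ y, f y ∈ s) : Y ⟶ sb s :=
  TopCat.ofHom ⟨fun y => ⟨f y, h y⟩, f.hom.continuous.subtype_mk _⟩

theorem cod_inc (f : Y ⟶ TopCat.of X) (s : Set X) (h : ∀ y, f y ∈ s) : cod f s h ≫ inc s = f :=
  rfl

/-- the iterates of a map -/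
def itr (f : Y ⟶ Y) (k : ℕ) : Y ⟶ Y := TopCat.ofHom ⟨f^[k], f.hom.continuous.iterate k⟩

theorem itr_zero (f : Y ⟶ Y) : itr f 0 = 𝟙 Y := rfl

theorem itr_succ (f : Y ⟶ Y) (k : ℕ) : itr f (k + 1) = f ≫ itr f k := rfl

end sub

/-- Leray-Hirsch data with the top coefficient `G` -/
structure LG {E B : TopCat.{0}} (p : E ⟶ B) (d : ℤ) : Type 1 where
  ι : Type
  [fin : Fintype ι]
  c : ι → H ℂ E
  dg : ι → ℤ
  c_mem : ∀ j, c j ∈ Hd ℂ E (dg j)
  lh : LHB p c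
  top : ι
  dg_top : dg top = d
  G : H ℂ E →ₗ[ℂ] H ℂ B
  G_mul : ∀ v a, G (v * pb p a) = G v * a
  G_top : G (c top) = 1
  G_low : ∀ j, j ≠ top → G (c j) = 0

attribute [instance] LG.fin

/-- the cohomology theory -/
abbrev th : Th := thOf P275S.mv0_lhp

section spaces

variable {C : Type} [TopologicalSpace C] [Nc C] {n : ℕ} (A : At C) (l : Cy A ℂ) (hn : 2 ≤ n)

/-- a moduli space -/
abbrev MT (τ : Ty n) : TopCat.{0} := TopCat.of (Mod A l τ)

variable {A l hn} in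
/-- the parameter `z` -/
def zz (m : Mod A l (tauY hn)) : ℂ := m.η (0 : Fin 1)

/-- the domain of the Hecke map -/
def sTp : Set (Mod A l (tauY hn)) := {m | m.lam.im = 0 ∧ 0 < (zz m).im}

/-- Higgs objects over the closed ray -/
def sR : Set (Mod A l (tauY hn)) := {m | m.lam = 0 ∧ (zz m).re = 0 ∧ 0 ≤ (zz m).im}

/-- Higgs objects over the open ray -/
def sRp : Set (Mod A l (tauY hn)) := {m | m.lam = 0 ∧ (zz m).re = 0 ∧ 0 < (zz m).im}

/-- the slice `λ = c` -/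
def sL (τ : Ty n) (c : ℂ) : Set (Mod A l τ) := {m | m.lam = c}

/-- the pole -/
def xx (τ : Ty n) : MT A l τ ⟶ TopCat.of C := TopCat.ofHom ⟨Mod.x, cont_x⟩

/-- `Tp ⟶ T` -/
abbrev jT : sb (sTp A l hn) ⟶ MT A l (tauY hn) := inc _

/-- `Rp ⟶ R` -/
def jR : sb (sRp A l hn) ⟶ sb (sR A l hn) := cod (inc _) _ fun y => ⟨y.2.1, y.2.2.1, y.2.2.2.le⟩

/-- `T0 ⟶ T` -/
def i0 : MT A l (tauZ n 0) ⟶ MT A l (tauY hn) := TopCat.ofHom (tyC A l le_rfl (nk_le_qY 0))

variable (n)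

/-- `P ⟶ T0` -/
def iP : MT A l (tauZ n (nr n)) ⟶ MT A l (tauZ n 0) :=
  TopCat.ofHom (tyC A l le_rfl (nk_anti (Nat.zero_le _)))

/-- forget the flag -/
def fg : MT A l (tauZ n (nr n)) ⟶ MT A l (tauX n) := TopCat.ofHom (tyC A l le_top nk_top.le)

/-- `P ⟶ T0` on the slice `λ = c` -/
def eL (c : ℂ) : sb (sL A l (tauZ n (nr n)) c) ⟶ sb (sL A l (tauZ n 0) c) :=
  cod (inc _ ≫ iP n A l) _ fun y =>
    (ty_lam (τ := tauZ n (nr n)) (τ' := tauZ n 0) le_rfl (nk_anti (Nat.zero_le _)) y.1).trans y.2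

/-- the Hodge moduli space -/
abbrev HT (p : C) : TopCat.{0} := TopCat.of (XH n A l p)

/-- its inclusion -/
def iH (p : C) : HT n A l p ⟶ MT A l (tauX n) := inc {y : Mod A l (tauX n) | y.x = p}

/-- move the marked point to `p` -/
def pX (p : C) : MT A l (tauX n) ⟶ HT n A l p := TopCat.ofHom (toH n A l p)

/-- `P ⟶ XH` -/
def pP (p : C) : MT A l (tauZ n (nr n)) ⟶ HT n A l p := fg n A l ≫ pX n A l p

variable {n}

/-- the facts on the Hecke map -/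
abbrev PH : Prop := PHI A l (tauY hn) (o0 hn) (0 : Fin 1) n

variable {A l hn}

theorem sTp_om {m : Mod A l (tauY hn)} (h : m ∈ sTp A l hn) : m ∈ Om A l (tauY hn) (0 : Fin 1) :=
  ⟨h.1, h.2.ne'⟩

theorem PH.zz_im (ph : PH A l hn) {m : Mod A l (tauY hn)} (h : m ∈ sTp A l hn) :
    (zz (phi (o0 hn) m)).im = (zz m).im := by
  have h1 := congrArg Complex.im ph.one
  have h2 : (n : ℝ) ≠ 0 := Nat.cast_ne_zero.2 (by omega)
  rw [Complex.mul_im, Complex.ofReal_im, zero_mul, add_zero, Complex.one_im,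
    Complex.ofReal_re] at h1
  rw [zz, ph.η m (sTp_om h), Pi.add_apply, Pi.smul_apply, smul_eq_mul, Complex.add_im,
    Complex.mul_im, h.1, (mul_eq_zero.1 h1).resolve_left h2, zz]
  ring

/-- one Hecke step -/
def φ1 (ph : PH A l hn) : sb (sTp A l hn) ⟶ sb (sTp A l hn) :=
  TopCat.ofHom ⟨fun m => ⟨phi (o0 hn) m.1, (congrArg Complex.im (ph.lam _)).trans m.2.1,
    m.2.2.trans_eq (ph.zz_im m.2).symm⟩, (ph.cont.comp_continuous continuous_subtype_val
      fun m => sTp_om m.2).subtype_mk _⟩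

variable (A l) [Hy A l n]

/-- the line bundles of the flag -/
def Yb (τ : Ty n) (hH : τ.H ≤ bor n) (a : Fin n) : LB (Mod A l τ) :=
  (univ A l τ).lb ((entB hH a).pow n) (Chr.det _) (one_mul n)

/-- their classes -/
def yE (τ : Ty n) (hH : τ.H ≤ bor n) (a : Fin n) : th.E (Mod A l τ) := th.c (Yb A l τ hH a)

/-- the product of the positive roots -/
def Del (τ : Ty n) (hH : τ.H ≤ bor n) : H ℂ (MT A l τ) := (Th.dis (yE A l τ hH) 0).1

variable (hn)

/-- the class of the first line -/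
def y0 (τ : Ty n) (hH : τ.H ≤ bor n) : H ℂ (MT A l τ) := (yE A l τ hH (o0 hn)).1

/-- **BIJT** -/
def BIJT : Prop := Bijective (pb (k := ℂ) (jT A l hn))

/-- **SUR0** -/
def SUR0 : Prop := Bijective (pb (k := ℂ) (i0 A l hn))

/-- **ISOR** -/
def ISOR : Prop := IsIso (pullI ℂ (jR A l hn))

/-- **HKF**: the Hecke formula -/
def HKF : Prop := ∀ (ph : PH A l hn) (κ : HH C) (e : H ℂ (MT A l (tauY hn))),
  κ ∈ Hd ℂ (TopCat.of C) 2 → κ ≠ 0 → IsE P275S.mv0_lhp (univ A l (tauY hn)) κ e →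
  ∃ a b c : ℂ, a ≠ 0 ∧ pb (φ1 ph) (pb (jT A l hn) e) = pb (jT A l hn)
      (e + (a • y0 A l hn (tauY hn) le_rfl + b • pb (xx A l _) κ)) ∧
    pb (φ1 ph) (pb (jT A l hn) (y0 A l hn (tauY hn) le_rfl)) =
      pb (jT A l hn) (y0 A l hn (tauY hn) le_rfl + c • pb (xx A l _) κ)

/-- **FLG**: the flag bundle and the trace formula -/
def FLG : Prop := ∃ (Q : LG (fg n A l) (2 * nr n : ℕ)) (u v : ℂ), v ≠ 0 ∧
  Q.G (Del A l _ le_rfl) = u • 1 ∧ Q.G (y0 A l hn _ le_rfl * Del A l _ le_rfl) = 0 ∧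
  Q.G (y0 A l hn _ le_rfl * y0 A l hn _ le_rfl * Del A l _ le_rfl) =
    v • (th.p2 (univ A l (tauX n)).fr.End).1

/-- **UB**: a uniform bound for the cohomological dimension of compact subsets -/
def UB : Prop := ∃ b : ℤ, ∀ (F : TopCat.{0}) (i : F ⟶ MT A l (tauY hn)), IsInducing i →
  IsCompact (range i) → ∀ m, b < m → Hd ℂ F m = ⊥

/-- **FBE**: the samples determine the characteristic polynomial -/
def FBE : Prop := ∀ m m₀ : Mod A l (tauY hn), m.lam = 0 → m₀.lam = 0 →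
  (hY m = hY m₀ ↔ m ∈ Fb m₀)

variable (n)

/-- **SURH** -/
def SURH : Prop := ∀ (p : C) (X : TopCat.{0}) (s : X ⟶ HT n A l p), IsEmbedding s →
  range s = {y | y.1.lam = 0} → Bijective (pb (k := ℂ) s)

/-- **DW**: the product of the roots vanishes where the residue does not -/
def DW : Prop := pb (inc (range (iP n A l))ᶜ) (Del A l (tauZ n 0) le_rfl) = 0

/-- **HIT** -/
def HIT : Prop := ∀ τ : Ty n, bor n ≤ τ.H → IsProperMap fun y : M0 A l τ => hY y.1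

end spaces

/-- **CURV**: a homogeneous basis of the cohomology of the curve -/
def CURV (C : Type) [TopologicalSpace C] : Prop := ∀ κ ∈ Hd ℂ (TopCat.of C) 2, κ ≠ 0 →
  ∃ (ι : Type) (_ : Fintype ι) (b : ι → HH C) (dg : ι → ℤ) (top : ι),
    (Bijective fun r : ι → ℂ => ∑ j, r j • b j) ∧ (∀ j, b j ∈ Hd ℂ (TopCat.of C) (dg j)) ∧
      b top = κ ∧ dg top = 2 ∧ ∀ j, j ≠ top → dg j ≤ 1

instance (S : Sit) : Nc S.C :=
  ⟨inferInstance, inferInstance, ChartedSpace.secondCountable_of_sigmaCompact ℂ S.C⟩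

section brg

variable {S : Sit} (B : S.Brg)

/-- the section at the time `t` -/
def sec (t : unitInterval) : TX S.g S.n (deg S.D) ⟶ HT S.n B.T.A B.T.l S.p :=
  cod (TopCat.ofHom (B.sg.comp ⟨fun x => (t, x), by fun_prop⟩))
    {y : Mod B.T.A B.T.l (tauX S.n) | y.x = S.p} fun x => B.x t x

/-- **S1**: the section at the time one -/
def S1 : Prop := IsEmbedding (sec B 1) ∧ range (sec B 1) = {y | y.1.lam = 1}

variable [Hy B.T.A B.T.l S.n]

/-- the weight estimates: `P275OP.Pkg.WL` for the instance -/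
structure WLI (ph : PH B.T.A B.T.l B.T.std.two)
    (π : sb (sL B.T.A B.T.l (tauZ S.n (nr S.n)) 1) ⟶ TX S.g S.n (deg S.D))
    (WX : ℤ → Submodule ℂ (H ℂ (TX S.g S.n (deg S.D))))
    (WY : ℤ → Submodule ℂ (H ℂ (sb (sL B.T.A B.T.l (tauZ S.n 0) 1)))) : Prop where
  mono : ∀ k, WY (k - 2) ≤ WY k
  gy : ∀ γ ∈ KG.deg ℂ (K ℂ (eL S.n B.T.A B.T.l 1)) (K ℂ (𝟙 _)) (2 * nr S.n : ℕ), ∀ k,
    ∀ a ∈ WX k, act γ (pb π a) ∈ WY (k + 2 * nr S.n)
  tr : ∀ ψ ∈ KG.deg ℂ (K ℂ π) (K ℂ (𝟙 _)) (-(2 * nr S.n + 2)), ∀ k,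
    ∀ v ∈ WY (k + 2 * nr S.n), act ψ (pb (eL S.n B.T.A B.T.l 1) v) ∈ WX k
  hk : ∀ w w' : H ℂ (MT B.T.A B.T.l (tauY B.T.std.two)),
    pb (itr (φ1 ph) S.n) (pb (jT _ _ _) w) = pb (jT _ _ _) w' → ∀ k,
    pb (inc _) (pb (i0 _ _ _) w) ∈ WY k → pb (inc _) (pb (i0 _ _ _) (w' - w)) ∈ WY (k - 2)

end brg

/-- **WOI**: the weights -/
def WOI : Prop := ∀ (S : Sit) (B : S.Brg) [Hy B.T.A B.T.l S.n]
  (ph : PH B.T.A B.T.l B.T.std.two) π, π ≫ sec B 1 = inc _ ≫ pP S.n B.T.A B.T.l S.p →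
  ∀ Y : Cpt S.g S.n (deg S.D), ∃ WY, WLI B ph π (WH Y.hom) WY

end Vale.Agent.P275OI
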