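import Vale.Agent.P275OI.Defs
import Vale.Agent.P275S.Kun
import Vale.Agent.P275S.Fib

/-!
# P275, block OI: Leray-Hirsch data
-/

open CategoryTheory Topology Set Function
open Vale.Agent.P275Z
open P275S
open P275CC (LB Nc PFib)
open P275OP (LHB)

noncomputable section

set_option backward.isDefEq.respectTransparency false

namespace Vale.Agent.P275OI

variable {E B X : TopCat.{0}} {p : E ⟶ B} {d : ℤ} {ι : Type} [Fintype ι]

theorem lhb_fb [Nice E] {c : ι → H ℂ E} (h : LHB p c) (y : B) :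
    Bijective fun r : ι → ℂ => ∑ j, r j • pb (fbι p y) (c j) := by
  obtain ⟨F, i, hi, hr, hb⟩ := h.bas y
  obtain ⟨f, hf⟩ := P275LO.ex_fib (k := ℂ) h.pr y hi hr
  obtain ⟨g, hg⟩ := P275LO.ex_fib (k := ℂ) h.pr y (isFib_fbι p y).ind Subtype.range_val
  refine bij_congr (g.bijective.comp (f.symm.bijective.comp hb)) fun r => ?_
  have e : ∀ {F : TopCat.{0}} (i : F ⟶ E),
      ∑ j, r j • pb i (c j) = pb i (∑ j, r j • c j) := fun i => by simp only [map_sum, map_smul]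
  simp only [Function.comp_apply, e]
  rw [← hf, ← hg, LinearEquiv.symm_apply_apply]

theorem lhb_bij [Nice E] {c : ι → H ℂ E} {dg : ι → ℤ} (hc : ∀ j, c j ∈ Hd ℂ E (dg j))
    (h : LHB p c) : Bijective fun a : ι → H ℂ B => ∑ j, c j * pb p (a j) :=
  lh_H p h.pr dg c hc fun y => ⟨_, _, isFib_fbι p y, lhb_fb h y⟩

theorem lhb_comp [Nice E] [Nice B] {q : B ⟶ X} {κ : Type} [Fintype κ] {c : ι → H ℂ E}
    {c' : κ → H ℂ B} {dg : ι → ℤ} (hc : ∀ j, c j ∈ Hd ℂ E (dg j)) (h : LHB p c) (h' : LHB q c') :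
    LHB (p ≫ q) fun j : ι × κ => c j.1 * pb p (c' j.2) := by
  have hp : IsProperMap (p ≫ q) := h'.pr.comp h.pr
  refine ⟨hp, fun y => ⟨_, fbι (p ≫ q) y, (isFib_fbι _ y).ind, Subtype.range_val, ?_⟩⟩
  have k := hp.isCompact_preimage (isCompact_singleton (x := y))
  have : Nice (Fb (p ≫ q) y) := nice_of_compact k
  have : CompactSpace (Fb (p ≫ q) y) := isCompact_iff_compactSpace.1 k
  have : T2Space (Fb q y) := inferInstanceAs (T2Space (q ⁻¹' {y} : Set B))
  let r : Fb (p ≫ q) y ⟶ Fb q y := TopCat.ofHom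
    ⟨fun z => ⟨p z.1, z.2⟩, (p.hom.continuous.comp continuous_subtype_val).subtype_mk _⟩
  have h1 := lh_H r r.hom.continuous.isProperMap dg (fun j => pb (fbι (p ≫ q) y) (c j))
    (fun j => pb_mem _ (hc j)) fun x => by
      let j : Fb p x.1 ⟶ Fb (p ≫ q) y := TopCat.ofHom ⟨fun z => ⟨z.1, (congrArg q z.2).trans x.2⟩,
        continuous_subtype_val.subtype_mk _⟩
      refine ⟨_, j, ⟨IsInducing.of_comp j.hom.continuous continuous_subtype_val
        IsInducing.subtypeVal, fun z => Subtype.ext z.2,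
        fun z hz => ⟨⟨z.1, congrArg Subtype.val hz⟩, rfl⟩⟩, ?_⟩
      simp only [pb_comp]
      exact lhb_fb h x.1
  refine bij_congr (h1.comp ((Bijective.piMap fun _ : ι => lhb_fb h' y).comp
    (Equiv.curry ι κ ℂ).bijective)) fun s => ?_
  simp only [Fintype.sum_prod_type, Function.comp_apply, Pi.map_apply, map_sum, map_smul, map_mul,
    Finset.mul_sum, mul_smul_comm, pb_comp]
  rfl

namespace LG

/-- the composition -/
def comp [Nice E] [Nice B] {q : B ⟶ X} {d' : ℤ} (Q : LG p d) (Q' : LG q d') :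
    LG (p ≫ q) (d + d') where
  ι := Q.ι × Q'.ι
  c j := Q.c j.1 * pb p (Q'.c j.2)
  dg j := Q.dg j.1 + Q'.dg j.2
  c_mem j := mul_mem_Hd rfl (Q.c_mem _) (pb_mem p (Q'.c_mem _))
  lh := lhb_comp Q.c_mem Q.lh Q'.lh
  top := (Q.top, Q'.top)
  dg_top := by rw [Q.dg_top, Q'.dg_top]
  G := Q'.G ∘ₗ Q.G
  G_mul v a := by
    rw [← pb_comp, LinearMap.comp_apply, Q.G_mul, Q'.G_mul, LinearMap.comp_apply]
  G_top := by rw [LinearMap.comp_apply, Q.G_mul, Q.G_top, one_mul, Q'.G_top]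
  G_low j hj := by
    rw [LinearMap.comp_apply, Q.G_mul]
    by_cases h : j.1 = Q.top
    · rw [h, Q.G_top, one_mul, Q'.G_low _ fun e => hj (Prod.ext h e)]
    · rw [Q.G_low _ h, zero_mul, map_zero]

theorem comp_G [Nice E] [Nice B] {q : B ⟶ X} {d' : ℤ} (Q : LG p d) (Q' : LG q d') (v : H ℂ E) :
    (Q.comp Q').G v = Q'.G (Q.G v) := rfl

/-- transport along equalities -/
def cast (Q : LG p d) {p' : E ⟶ B} {d' : ℤ} (e : p = p') (e' : d = d') : LG p' d' :=
  { Q with lh := e ▸ Q.lh, dg_top := Q.dg_top.trans e', G_mul := e ▸ Q.G_mul }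

theorem cast_G (Q : LG p d) {p' : E ⟶ B} {d' : ℤ} (e : p = p') (e' : d = d') :
    (Q.cast e e').G = Q.G := rfl

theorem G_c (Q : LG p d) [DecidableEq Q.ι] (j : Q.ι) (a : H ℂ B) :
    Q.G (Q.c j * pb p a) = if j = Q.top then a else 0 := by
  rw [Q.G_mul]
  split_ifs with h
  · rw [h, Q.G_top, one_mul]
  · rw [Q.G_low _ h, zero_mul]

theorem bij [Nice E] (Q : LG p d) : Bijective fun a : Q.ι → H ℂ B => ∑ j, Q.c j * pb p (a j) :=
  lhb_bij Q.c_mem Q.lh

theorem G_sum (Q : LG p d) (a : Q.ι → H ℂ B) : Q.G (∑ j, Q.c j * pb p (a j)) = a Q.top := by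
  classical
  simp only [map_sum, Q.G_c, Finset.sum_ite_eq', Finset.mem_univ, if_true]

theorem G_mem [Nice E] (Q : LG p d) {v : H ℂ E} {m n : ℤ} (e : n + d = m) (hv : v ∈ Hd ℂ E m) :
    Q.G v ∈ Hd ℂ B n := by
  obtain ⟨a, rfl⟩ := Q.bij.2 v
  have h1 : ∑ j, Q.c j * pb p (KG.pr (m - Q.dg j) (a j)) = ∑ j, Q.c j * pb p (a j) := by
    refine .trans ?_ (KG.pr_of_mem hv)
    rw [map_sum]
    refine Finset.sum_congr rfl fun j _ => ?_
    rw [pb_pr]
    exact (KG.pr_comp_of_right (by omega) _ (Q.c_mem j)).symm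
  beta_reduce
  rw [G_sum, ← congrFun (Q.bij.1 h1) Q.top, Q.dg_top, show m - d = n by omega]
  exact KG.pr_mem_deg _ _

theorem G_pb [Nice E] (Q : LG p d) (hd : 0 < d) (a : H ℂ B) : Q.G (pb p a) = 0 := by
  rw [← one_mul (pb p a), Q.G_mul, eq_zero_of_neg (n := -d) (by omega)
    (Q.G_mem (by omega) one_mem_Hd), zero_mul]

/-- the sum as a linear map -/
def sumL (p : E ⟶ B) (c : ι → H ℂ E) : (ι → H ℂ B) →ₗ[ℂ] H ℂ E :=
  ∑ j, LinearMap.mulLeft ℂ (c j) ∘ₗ (pb p).toLinearMap ∘ₗ LinearMap.proj j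

theorem sumL_apply (c : ι → H ℂ E) (a : ι → H ℂ B) : sumL p c a = ∑ j, c j * pb p (a j) := by
  simp [sumL]

/-- the data given by a basis -/
def ofLHB [Nice E] {c : ι → H ℂ E} {dg : ι → ℤ} (hc : ∀ j, c j ∈ Hd ℂ E (dg j)) (h : LHB p c)
    (top : ι) : LG p (dg top) :=
  let Φ := LinearEquiv.ofBijective (sumL p c) (bij_congr (lhb_bij hc h) (sumL_apply c))
  have k : ∀ a, Φ.symm (∑ j, c j * pb p (a j)) = a := fun a =>
    Φ.symm_apply_eq.2 (sumL_apply c a).symm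
  have k1 : ∀ i, Φ.symm (c i) = (open Classical in Pi.single i 1) := fun i => by
    classical
    rw [← k (Pi.single i 1), Finset.sum_eq_single i (fun j _ hj => by simp [hj]) (by simp),
      Pi.single_eq_same, map_one, mul_one]
  { ι, c, dg, c_mem := hc, lh := h, top, dg_top := rfl
    G := LinearMap.proj top ∘ₗ Φ.symm.toLinearMap
    G_mul := fun v a => by
      obtain ⟨b, rfl⟩ := (lhb_bij hc h).2 v
      simp only [Finset.sum_mul, mul_assoc, ← map_mul, LinearMap.comp_apply, LinearEquiv.coe_coe, k,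
        LinearMap.proj_apply]
    G_top := by simp [k1]
    G_low := fun j hj => by simp [k1, hj.symm] }

/-- projective bundles -/
theorem step {X Y : Type} [TopologicalSpace X] [TopologicalSpace Y] [Nc Y] {π : C(Y, X)} {L : LB Y}
    {r e : ℕ} (hp : IsProperMap π) (h : ∀ x, PFib L (π ⁻¹' {x}) r e) (he : e ≠ 0) :
    ∃ Q : LG (TopCat.ofHom π) (2 * r : ℕ), ∀ a, ∀ i ≤ r,
      Q.G (pq π a * cq L ^ i) = if i = r then a else 0 := by
  let Q := ofLHB (p := TopCat.ofHom π) (c := fun i : Fin (r + 1) => cq L ^ (i : ℕ))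
    (fun i => pow_mem_Hd (cq_mem L) i) ⟨hp, fun x => by
      rw [cq_eq]
      exact H_pfib (Z := TopCat.of Y) he (h x)⟩ (Fin.last r)
  refine ⟨Q.cast rfl (by simp), fun a i hi => ?_⟩
  rw [← (commute_of_even (pow_mem_Hd (cq_mem L) i) (even_two.mul_right _) _).eq]
  classical
  refine (Q.G_c (⟨i, by omega⟩ : Fin (r + 1)) a).trans ?_
  exact if_congr Fin.ext_iff rfl rfl

theorem nice_unit : Nice (TopCat.of Unit) := ⟨inferInstance, inferInstance, inferInstance⟩

/-- isomorphisms -/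
def iso (p : E ⟶ B) [IsIso p] : LG p 0 where
  ι := Unit
  c _ := 1
  dg _ := 0
  c_mem _ := one_mem_Hd
  lh := ⟨(TopCat.homeoOfIso (asIso p)).isProperMap, fun y => by
    have := nice_unit
    have hi := (TopCat.homeoOfIso (asIso p)).injective
    refine ⟨TopCat.of Unit, TopCat.ofHom (ContinuousMap.const _ (inv p y)),
      IsInducing.of_subsingleton _, ?_, ?_⟩
    · ext z
      exact ⟨fun ⟨_, a⟩ => a ▸ IsIso.inv_hom_id_apply p y,
        fun a => ⟨(), hi ((IsIso.inv_hom_id_apply p y).trans a.symm)⟩⟩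
    · simp only [map_one]
      exact H_convex (g := fun _ (_ : Fin 0) => 0) continuous_const (fun _ _ _ => rfl)
        (Set.subsingleton_of_subsingleton.convex)⟩
  top := ()
  dg_top := rfl
  G := (pb (inv p)).toLinearMap
  G_mul v a := by
    simp only [AlgHom.toLinearMap_apply, map_mul, pb_comp, IsIso.inv_hom_id, pb_id]
  G_top := map_one (pb (inv p))
  G_low _ h := (h rfl).elim

theorem iso_G (p : E ⟶ B) [IsIso p] (v : H ℂ E) : (iso p).G v = pb (inv p) v := rfl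

theorem iso_pb (p : E ⟶ B) [IsIso p] (a : H ℂ B) : (iso p).G (pb p a) = a := by
  rw [iso_G, pb_comp, IsIso.inv_hom_id, pb_id]

theorem homeo (hp : IsHomeomorph p) : ∃ Q : LG p 0, ∀ a, Q.G (pb p a) = a :=
  have : IsIso p := TopCat.isIso_of_bijective_of_isOpenMap p hp.bijective hp.isOpenMap
  ⟨iso p, iso_pb p⟩

/-- products with a curve -/
theorem prd {C : Type} [TopologicalSpace C] {q : E ⟶ TopCat.of C} (P : Prd ℂ p q) (h : CURV C)
    {κ : HH C} (hκ : κ ∈ Hd ℂ (TopCat.of C) 2) (h0 : κ ≠ 0) :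
    ∃ (lam : HH C →ₗ[ℂ] ℂ) (Q : LG p 2), Q.G = P.sl lam ∧ lam κ = 1 ∧
      ∀ m, m ≠ 2 → ∀ v ∈ Hd ℂ (TopCat.of C) m, lam v = 0 := by
  classical
  obtain ⟨ι, _, b, dg, top, h1, h2, h3, h4, h5⟩ := h κ hκ h0
  let Φ := LinearEquiv.ofBijective (Fintype.linearCombination ℂ b) h1
  have k : ∀ r, Φ.symm (∑ j, r j • b j) = r := fun r => Φ.symm_apply_eq.2 rfl
  have k1 : ∀ i, Φ.symm (b i) = Pi.single i 1 := fun i => by
    rw [← k (Pi.single i 1), Finset.sum_eq_single i (fun j _ hj => by simp [hj]) (by simp)]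
    simp
  let lam : HH C →ₗ[ℂ] ℂ := LinearMap.proj top ∘ₗ Φ.symm.toLinearMap
  refine ⟨lam, ⟨ι, fun j => pb q (b j), dg, fun j => pb_mem q (h2 j), ⟨P.proper, fun x =>
    ⟨_, P.fib x, P.fib_ind x, P.fib_range x, by simpa only [pb_comp, P.fib_q, pb_id] using h1⟩⟩,
    top, h4, P.sl lam, P.sl_mul_right lam, by simp [P.sl_q, lam, k1],
    fun j hj => by simp [P.sl_q, lam, k1, hj.symm]⟩, rfl, by simp [← h3, lam, k1],
    fun m hm v hv => ?_⟩
  obtain ⟨r, rfl⟩ := h1.2 v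
  have e := KG.pr_of_ne hv hm
  rw [map_sum, Finset.sum_eq_single top (fun j _ hj => by
    rw [map_smul, KG.pr_of_ne (h2 j) (by have := h5 j hj; omega), smul_zero]) (by simp), map_smul,
    h3, KG.pr_of_mem hκ] at e
  exact (congrFun (k r) top).trans ((smul_eq_zero.1 e).resolve_right h0)

end LG

end Vale.Agent.P275OI
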