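import Vale.Agent.P275OI.Ray
import Vale.Agent.P275OI.Lg
import Vale.Agent.P275CN.Ins
import Vale.Agent.P275MM.Flg
import Vale.Agent.P275OP.Unip
import Vale.Agent.P275S1.Sec
import Vale.Agent.P275DW.Main
import Vale.Agent.P275MM.Unv
import Vale.Agent.P275AD.Trv

/-!
# P275, block OI: the package, and the operator
-/

open CategoryTheory Topology Set Function
open Vale.Agent.P275GC (At)
open Vale.Agent.P275NA (Cy)
open Vale.Agent.P275MO Vale.Agent.P275Z Vale.Agent.P275MM Vale.Agent.P275DW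
open Vale.Agent.P275MB (cont_x)
open Vale.Agent.P275HN (hB ret)
open Vale.Agent.P275ST (XB Cpt deg Base)
open P275S P275OP
open P275CC (Nc Th)

noncomputable section

set_option backward.isDefEq.respectTransparency false
set_option linter.unusedSectionVars false

namespace Vale.Agent.P275OI

theorem alg_tr {R M : Type} [Ring R] [Algebra ℂ R] [AddCommGroup M] [Module ℂ M]
    (G : R →ₗ[ℂ] M) {D y ψ : R} (cy : ∀ b, y * b = b * y) (cD : ∀ b, D * b = b * D)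
    (h1 : G (y * D * ψ) = 0) (h2 : ψ * ψ = 0) (a b : ℂ) :
    G (D * ((a • y + b • ψ) * (a • y + b • ψ))) = (a * a) • G (y * y * D) := by
  have e : D * (y * ψ) = y * D * ψ := by rw [← mul_assoc, cy]
  simp only [mul_add, add_mul, smul_mul_assoc, mul_smul_comm, map_add, map_smul, h2, ← cy ψ, e,
    h1, cD (y * y), smul_zero, add_zero, smul_smul]

theorem itr_cls {T Tp : TopCat.{0}} {j : Tp ⟶ T} {φ : Tp ⟶ Tp} {e y ψ : H ℂ T} {a b c : ℂ}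
    (h1 : pb φ (pb j e) = pb j (e + (a • y + b • ψ))) (h2 : pb φ (pb j y) = pb j (y + c • ψ))
    (h3 : pb φ (pb j ψ) = pb j ψ) (k : ℕ) : pb (itr φ k) (pb j ψ) = pb j ψ ∧
      pb (itr φ k) (pb j y) = pb j (y + (k * c) • ψ) ∧
      ∃ β : ℂ, pb (itr φ k) (pb j e) = pb j (e + ((k * a) • y + β • ψ)) := by
  induction k with
  | zero => exact ⟨pb_id _, (pb_id _).trans (by simp), 0, (pb_id _).trans (by simp)⟩
  | succ k ih =>
    obtain ⟨a1, a2, β, a3⟩ := ih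
    simp only [itr_succ, ← pb_comp, a1, a2, a3, map_add, map_smul, h1, h2, h3]
    refine ⟨trivial, ?_, b + k * a * c + β, ?_⟩ <;> push_cast <;> module

theorem itr_rel {T Tp : TopCat.{0}} {j : Tp ⟶ T} {φ : Tp ⟶ Tp} {e y ψ : H ℂ T} {a b c : ℂ}
    (h1 : pb φ (pb j e) = pb j (e + (a • y + b • ψ))) (h2 : pb φ (pb j y) = pb j (y + c • ψ))
    (h3 : pb φ (pb j ψ) = pb j ψ) (k : ℕ) : ∃ β β' : ℂ,
      pb (itr φ k) (pb j e) = pb j (e + ((k * a) • y + β • ψ)) ∧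
      pb (itr φ k) (pb j ((k * a) • y + β • ψ)) = pb j (((k * a) • y + β • ψ) + β' • ψ) ∧
      pb (itr φ k) (pb j (β' • ψ)) = pb j (β' • ψ) := by
  obtain ⟨a1, a2, β, a3⟩ := itr_cls h1 h2 h3 k
  refine ⟨β, k * a * (k * c), a3, ?_, ?_⟩
  · simp only [map_add, map_smul, a1, a2]
    module
  · simp only [map_smul, a1]

theorem pb_quad {X Y : TopCat.{0}} (f : X ⟶ Y) (D y ψ : H ℂ Y) (a b : ℂ) :
    pb f (D * ((a • y + b • ψ) * (a • y + b • ψ))) =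
      pb f D * ((a • pb f y + b • pb f ψ) * (a • pb f y + b • pb f ψ)) := by
  simp only [map_mul, map_add, map_smul]

theorem pb_sq {X Y : TopCat.{0}} (f : X ⟶ Y) {ψ : H ℂ Y} (h : ψ * ψ = 0) :
    pb f ψ * pb f ψ = 0 := by rw [← map_mul, h, map_zero]

section tr

variable {C : Type} [TopologicalSpace C] [Nc C] {n : ℕ} {A : At C} {l : Cy A ℂ} (hn : 2 ≤ n)
  [Hy A l n]

theorem xx_P (w : HH C) : pb (iP n A l) (pb (i0 A l hn) (pb (xx A l _) w)) =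
    pb (fg n A l) (pb (xx A l _) w) := by
  rw [pb_comp, pb_comp, pb_comp]
  refine congrArg (pb · w) ?_
  ext1 y
  obtain ⟨z, rfl⟩ := pt_surj y
  rfl

theorem y0_P : pb (iP n A l) (pb (i0 A l hn) (y0 A l hn _ le_rfl)) = y0 A l hn _ le_rfl :=
  (congrArg _ (y0_ty _ _ hn _ _ _)).trans (y0_ty _ _ hn _ _ _)

theorem Del_0 : pb (i0 A l hn) (Del A l _ le_rfl) = Del A l _ le_rfl := Del_ty _ _ _ _ _

theorem Del_P : pb (iP n A l) (Del A l _ le_rfl) = Del A l _ le_rfl := Del_ty _ _ _ _ _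

theorem trace {κ : HH C} (hκ : κ * κ = 0) {d : ℤ} (Q : LG (fg n A l) d)
    (h : Q.G (y0 A l hn _ le_rfl * Del A l _ le_rfl) = 0) (a b b' : ℂ) :
    Q.G (pb (iP n A l) (pb (i0 A l hn) (Del A l _ le_rfl *
      ((a • y0 A l hn _ le_rfl + b • pb (xx A l _) κ - (1 / 2 : ℂ) • b' • pb (xx A l _) κ) *
      (a • y0 A l hn _ le_rfl + b • pb (xx A l _) κ - (1 / 2 : ℂ) • b' • pb (xx A l _) κ))))) =
      (a * a) • Q.G (y0 A l hn _ le_rfl * y0 A l hn _ le_rfl * Del A l _ le_rfl) := by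
  rw [add_sub_assoc, smul_smul, ← sub_smul, pb_quad, pb_quad, xx_P, y0_P, Del_0, Del_P]
  have h1 := Q.G_mul (y0 A l hn _ le_rfl * Del A l _ le_rfl) (pb (xx A l _) κ)
  rw [h, zero_mul] at h1
  exact alg_tr Q.G (Th.ev_comm (τ := th) (yE _ _ _ _ _).2) (Th.ev_comm (τ := th)
    (Th.dis (yE _ _ _ _) 0).2) h1 (pb_sq _ (pb_sq (xx A l _) hκ)) _ _

theorem injR {d : ℤ} (hS : Std A l n d) : Injective (pb (k := ℂ) (inc (sR A l hn))) := by
  have h : P275CN.Amb A l (tauY hn) := P275CN.amb_of hS (Hy.kur) le_rfl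
  have g : P275CN.Gd A l (tauY hn) ℂ univ
      ({v | 0 ≤ P275CN.imz hn v} ∩ {v | P275CN.rez hn v = 0}) := by
    refine h.closed isClosed_univ ((isClosed_le continuous_const (P275CN.imz hn).continuous).inter
      (P275CN.cl_ker _).1) ⟨(map_zero (P275CN.imz hn)).ge, map_zero (P275CN.rez hn)⟩
      fun s s0 v a => ⟨?_, ?_⟩ <;> rw [mem_ofPred_eq, map_smul]
    · exact mul_nonneg s0.le a.1
    · rw [a.2, smul_zero]
  exact (P275CN.Gd.all h g (inc_emb (sR A l hn)) ((inc_rng (sR A l hn)).trans (Set.ext fun y =>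
    ⟨fun a => ⟨a.2.2, Prod.ext a.1 a.2.1⟩,
      fun a => ⟨congrArg Prod.fst a.2, congrArg Prod.snd a.2, a.1⟩⟩))).1

variable {hn}

/-- the classes of the package -/
structure Dat (ph : PH A l hn) (p : C) (eH : H ℂ (HT n A l p)) : Type 1 where
  (e δ δ' : H ℂ (MT A l (tauY hn)))
  e_mem : e ∈ Hd ℂ _ 2
  δ_mem : δ ∈ Hd ℂ _ 2
  δ'_mem : δ' ∈ Hd ℂ _ 2
  Φe : pb (itr (φ1 ph) n) (pb (jT A l hn) e) = pb (jT A l hn) (e + δ)
  Φδ : pb (itr (φ1 ph) n) (pb (jT A l hn) δ) = pb (jT A l hn) (δ + δ')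
  Φδ' : pb (itr (φ1 ph) n) (pb (jT A l hn) δ') = pb (jT A l hn) δ'
  Q : LG (pP n A l p) (2 * (nr n : ℕ) + 2)
  eP : pb (iP n A l) (pb (i0 A l hn) e) = pb (pP n A l p) eH
  γ : ℂ
  γ_ne : γ ≠ 0
  tr : Q.G (pb (iP n A l) (pb (i0 A l hn) (Del A l _ le_rfl *
    ((δ - (1 / 2 : ℂ) • δ') * (δ - (1 / 2 : ℂ) • δ'))))) = γ • eH

theorem exists_dat (hk : HKF A l hn) (cv : CURV C) [CompactSpace C] (ph : PH A l hn) (p : C)
    {S : Sys A l (tauX n) (Mod A l (tauX n))} (hS : S.f = id) {κ : HH C}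
    (hκ : κ ∈ Hd ℂ (TopCat.of C) 2) (h0 : κ ≠ 0) {e} (he : IsE mv0_lhp S κ e) :
    e ∈ Hd ℂ (MT A l (tauX n)) 2 ∧ Nonempty (Dat ph p (pb (iH n A l p) e)) := by
  obtain ⟨lam, Q2, q4, l1, l0⟩ := LG.prd (Lam.prdH (A := A) (l := l) (n := n)
    (exists_lam cv hκ h0).choose_spec p) cv hκ h0
  have L := lam_of cv hκ h0 l1 fun j hj => l0 j (by omega)
  obtain rfl := L.isE_iff.1 he
  obtain ⟨a, b, c, ha, k1, k2⟩ := hk ph κ _ hκ h0 (L.isE_iff.2 rfl)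
  obtain ⟨β, β', k3, k4, k5⟩ := itr_rel k1 k2 (by
    rw [pb_comp, pb_comp, pb_comp]
    exact congrArg (pb · κ) (by ext1 y; exact ph.x _)) n
  obtain ⟨Q1, u, v, hv, -, q2, q3⟩ := flg (A := A) (l := l) hn
  have : Nice (MT A l (tauZ n (nr n))) := inferInstance
  have : Nice (MT A l (tauX n)) := inferInstance
  have mψ := pb_mem (xx A l (tauY hn)) hκ
  have n0 : (n : ℂ) ≠ 0 := Nat.cast_ne_zero.2 (by omega)
  refine ⟨L.cE_mem _, ⟨_, _, _, L.cE_mem _, add_mem (Submodule.smul_mem _ _ (y0_mem _ _ hn _))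
    (Submodule.smul_mem _ _ mψ), Submodule.smul_mem _ _ mψ, k3, k4, k5,
    (Q1.comp Q2).cast rfl (by push_cast; rfl), L.eP hn p hS, n * a * (n * a) * v,
    mul_ne_zero (mul_ne_zero (mul_ne_zero n0 ha) (mul_ne_zero n0 ha)) hv, ?_⟩⟩
  refine (congrArg Q2.G ((trace hn L.sq Q1 q2 _ _ _).trans (by rw [q3, smul_smul]))).trans ?_
  rw [map_smul, q4]
  exact congrArg _ (L.sl_fr p hS)

end tr

/-- **UNI**: the Hecke operator is unipotent -/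
def UNI {C : Type} [TopologicalSpace C] [Nc C] {n : ℕ} {A : At C} {l : Cy A ℂ} {hn : 2 ≤ n}
    (ph : PH A l hn) : Prop := ∃ m : ℕ, ∀ U : Module.End ℂ (H ℂ (MT A l (tauY hn))),
  (∀ w, pb (itr (φ1 ph) n) (pb (jT A l hn) w) = pb (jT A l hn) (U w)) → (U - 1) ^ m = 0

/-- **WOU**: the weights, given unipotence -/
def WOU : Prop := ∀ (S : Sit) (B : S.Brg) [Hy B.T.A B.T.l S.n]
  (ph : PH B.T.A B.T.l B.T.std.two) π, π ≫ sec B 1 = inc _ ≫ pP S.n B.T.A B.T.l S.p → UNI ph →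
  ∀ Y : Cpt S.g S.n (deg S.D), ∃ WY, WLI B ph π (WH Y.hom) WY

theorem WOI.wou (h : WOI) : WOU := fun S B _ ph π e _ => h S B ph π e

variable {S : Sit} (B : S.Brg)

theorem hit_eq {h : C(XB S.g S.n (deg S.D), Base S.C S.n)} (hh : S.IsHit h) (x) :
    h x = hB (B.sg (0, x)) := by
  obtain ⟨ρ, rfl⟩ := Quot.exists_rep x
  obtain ⟨z, hz⟩ := pt_surj (B.sg (0, ρ.pt))
  have h0 : z.1.lam = 0 := (congrArg Mod.lam hz).trans (by simpa using B.lam 0 ρ.pt)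
  obtain ⟨E, hE⟩ := (P275AD.rpa' S B.T).2.1 z h0
  have h1 := hh E ρ ((B.nah E ρ).2 ⟨z, hz, hE⟩)
  have h2 := P275HN.hit_rp B.T.ok (P275HB.R_zero rfl z) hE
  obtain ⟨-, r, a1, a2, a, σ, f, -⟩ := hE
  have ok := P275HB.ok_res (h1 := a1) (h2 := a2) B.T.ok
  exact (P275AD.base_ext ok fun k i w hw => ((P275AD.hit_iff ok f _).1 h1 k i w hw).trans
    ((P275AD.hit_iff ok f _).1 h2 k i w hw).symm).trans (congrArg hB hz)

theorem sec_htp : (sec B 0).hom.Homotopic (sec B 1).hom :=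
  ⟨⟨⟨fun q => ⟨B.sg q, B.x q.1 q.2⟩, B.sg.continuous.subtype_mk _⟩, fun _ => rfl, fun _ => rfl⟩⟩

theorem car {t : unitInterval} {c : ℂ} (h : IsEmbedding (sec B t) ∧
    range (sec B t) = {y | y.1.lam = c}) : ∃ π, Car (pP S.n B.T.A B.T.l S.p) (sec B t) π
      (inc (sL B.T.A B.T.l (tauZ S.n (nr S.n)) c)) :=
  exists_car _ h.1 (inc_emb _) (by
    rw [inc_rng, h.2]
    exact Set.ext fun y => (lam_pP S.p y).congr_left.symm)

theorem hr (hn : 2 ≤ S.n) {h : C(XB S.g S.n (deg S.D), Base S.C S.n)} (hh : S.IsHit h) {π}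
    (e : π ≫ sec B 0 = inc (sL B.T.A B.T.l _ 0) ≫ pP S.n B.T.A B.T.l S.p) :
    π ≫ TopCat.ofHom h = eL S.n B.T.A B.T.l 0 ≫ (iY B.T.A B.T.l hn ≫ gR B.T.A B.T.l hn) ≫
      TopCat.ofHom ⟨ret B.T.A, P275HB.cont_ret⟩ := by
  ext1 y
  have e : B.sg (0, π y) = P275XS.mvp S.p (fg S.n B.T.A B.T.l y.1) :=
    congrArg Subtype.val (ConcreteCategory.congr_hom e y)
  refine (hit_eq B hh _).trans ((congrArg hB e).trans
    ((P275XS.hB_mvp B.T.ok ((lam_fg _).trans y.2) _).trans ?_))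
  obtain ⟨y, hy⟩ := y
  obtain ⟨z, rfl⟩ := pt_surj y
  rfl

/-- the package -/
def pkg [Hy B.T.A B.T.l S.n] {h : C(XB S.g S.n (deg S.D), Base S.C S.n)} (hh : S.IsHit h)
    {ph : PH B.T.A B.T.l B.T.std.two} {eH} (D : Dat ph S.p eH) {α} (eH0 : pb (sec B 0) eH = α)
    {π0 π1} (c0 : Car (pP S.n B.T.A B.T.l S.p) (sec B 0) π0 (inc (sL B.T.A B.T.l _ 0)))
    (c1 : Car (pP S.n B.T.A B.T.l S.p) (sec B 1) π1 (inc (sL B.T.A B.T.l _ 1))) :
    Pkg (TopCat.ofHom h) α :=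
  have hn := B.T.std.two
  { T := _, Tp := _, T0 := _, P := _, W := _, XH := _, R := _, Rp := _, S := _, Y := _, P0 := _
    Y1 := _, P1 := _
    nT0 := inferInstance
    nXH := nice_cls (isClosed_eq cont_x continuous_const)
    nR := nice_cls cl_sR
    nY := nice_cls (cl_sL 0)
    nY1 := nice_cls (cl_sL 1)
    jT := jT B.T.A B.T.l hn
    Φ := itr (φ1 ph) S.n
    bijT := P275CN.bijt B.T.std
    e := D.e
    δ := D.δ
    δ' := D.δ'
    e_mem := D.e_mem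
    δ_mem := D.δ_mem
    δ'_mem := D.δ'_mem
    Φe := D.Φe
    Φδ := D.Φδ
    Φδ' := D.Φδ'
    i0 := i0 B.T.A B.T.l hn
    sur0 := (P275CN.sur0 B.T.std).2
    iP := iP S.n B.T.A B.T.l
    clP := cl_iP
    jW := inc _
    indW := (inc_emb _).isInducing
    rngW := inc_rng _
    N := nr S.n
    Δ := Del B.T.A B.T.l _ le_rfl
    Δ_mem := Del_mem _ _ _
    ΔW := (congrArg _ (Del_0 hn)).trans (dw _ _ _)
    p := pP S.n B.T.A B.T.l S.p
    s0 := sec B 0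
    s1 := sec B 1
    htp := sec_htp B
    surH := (P275CN.surh B.T.std _ _ _ (P275S1.s0 B).1 (P275S1.s0 B).2).2
    ι := D.Q.ι
    c := D.Q.c
    dg := D.Q.dg
    c_mem := D.Q.c_mem
    lh := D.Q.lh
    top := D.Q.top
    dg_top := D.Q.dg_top
    G := D.Q.G
    G_mul := D.Q.G_mul
    G_top := D.Q.G_top
    G_low := D.Q.G_low
    eH := eH
    eH0 := eH0
    eP := D.eP
    γ := D.γ
    γ_ne := D.γ_ne
    tr := D.tr
    iR := inc _
    jR := jR B.T.A B.T.l hn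
    embR := emb_jR
    isoR := P275CN.isor
    kR := kR B.T.A B.T.l hn
    sqR := rfl
    ΦR := ΦR B.T.std ph
    sqΦ := rfl
    g := gR B.T.A B.T.l hn
    prg := pr_gR B.T.std
    O := sO B.T.A hn
    opO := isOpen_lt continuous_const (Complex.continuous_im.comp
      ((continuous_apply _).comp continuous_snd.fst))
    rngR := rng_jR
    Φg := ΦR_g B.T.std ph
    b := (fib B.T.std ph).choose
    fib := (fib B.T.std ph).choose_spec
    iY := iY B.T.A B.T.l hn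
    indY := cod_ind (f := inc _ ≫ i0 B.T.A B.T.l hn)
      (cl_i0.isInducing.comp (inc_emb (sL B.T.A B.T.l _ 0)).isInducing) _
    S0 := {s | s.2.1 = 0}
    clS := isClosed_eq continuous_snd.fst continuous_const
    rngY := rng_iY
    f0 := inc _
    sq0 := rfl
    e0 := eL S.n B.T.A B.T.l 0
    cl0 := cl_eL 0
    rng0 := rng_eL 0
    k0 := inc _
    sqk0 := rfl
    π0 := π0
    car0 := c0
    r := TopCat.ofHom ⟨ret B.T.A, P275HB.cont_ret⟩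
    hr := hr B hn hh c0.sq
    f1 := inc _
    e1 := eL S.n B.T.A B.T.l 1
    cl1 := cl_eL 1
    rng1 := rng_eL 1
    k1 := inc _
    sqk1 := rfl
    π1 := π1
    car1 := c1 }

/-- the weight estimates, with explicit maps -/
def WLG {X T Tp T0 Y P : TopCat.{0}} (jT : Tp ⟶ T) (Φ : Tp ⟶ Tp) (i0 : T0 ⟶ T) (f : Y ⟶ T0)
    (e : P ⟶ Y) (π : P ⟶ X) (N : ℕ) (WX : ℤ → Submodule ℂ (H ℂ X))
    (WY : ℤ → Submodule ℂ (H ℂ Y)) : Prop := (∀ k, WY (k - 2) ≤ WY k) ∧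
  (∀ γ ∈ KG.deg ℂ (K ℂ e) (K ℂ (𝟙 Y)) (2 * N : ℕ), ∀ k, ∀ a ∈ WX k,
    act γ (pb π a) ∈ WY (k + 2 * N)) ∧
  (∀ ψ ∈ KG.deg ℂ (K ℂ π) (K ℂ (𝟙 X)) (-(2 * N + 2)), ∀ k, ∀ v ∈ WY (k + 2 * N),
    act ψ (pb e v) ∈ WX k) ∧
  ∀ w w' : H ℂ T, pb Φ (pb jT w) = pb jT w' → ∀ k, pb f (pb i0 w) ∈ WY k →
    pb f (pb i0 (w' - w)) ∈ WY (k - 2)

theorem WLG.wl {X V : TopCat.{0}} {h : X ⟶ V} {α} (Q : Pkg h α) {WX WY}
    (W : WLG Q.jT Q.Φ Q.i0 Q.f1 Q.e1 Q.π1 Q.N WX WY) : Q.WL WX WY :=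
  ⟨W.1, W.2.1, W.2.2.1, W.2.2.2⟩

theorem oper_of {g n : ℕ} {d : ℤ} {V : Type} [AddCommGroup V] [Module ℂ V] [TopologicalSpace V]
    {h : C(XB g n d, V)} {α} [Nice (TX g n d)] (Q : Pkg (TopCat.ofHom h) α)
    (hα : α ∈ Hd ℂ _ 2) : ∃ E : End (K ℂ (TopCat.ofHom h)), Oper h α E ∧
    ∀ WX WY, Q.WL WX WY → ∀ k, ∀ a ∈ WX k, act E a ∈ WX (k - 4) := by
  obtain ⟨E, d1, d2, d3⟩ := Q.oper hα
  exact ⟨E, ⟨hα, d1, 2 * Q.γ, mul_ne_zero two_ne_zero Q.γ_ne, d2⟩, d3⟩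

section fin

variable {B} [Hy B.T.A B.T.l S.n] {h : C(XB S.g S.n (deg S.D), Base S.C S.n)} (hh : S.IsHit h)
  {ph : PH B.T.A B.T.l B.T.std.two} {eH} (D : Dat ph S.p eH) {α} (eH0 : pb (sec B 0) eH = α)
  {π0 π1} (c0 : Car (pP S.n B.T.A B.T.l S.p) (sec B 0) π0 (inc (sL B.T.A B.T.l _ 0)))
  (c1 : Car (pP S.n B.T.A B.T.l S.p) (sec B 1) π1 (inc (sL B.T.A B.T.l _ 1)))

include hh D eH0 c0 c1

theorem pkg_uni : UNI ph :=
  have := P275S1.nx B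
  (pkg B hh D eH0 c0 c1).unip' (injR _ B.T.std)

theorem pkg_wl {WX WY} (W : WLI B ph π1 WX WY) : (pkg B hh D eH0 c0 c1).WL WX WY :=
  WLG.wl _ (show WLG (jT _ _ _) (itr (φ1 ph) S.n) (i0 _ _ _) (inc _) (eL S.n B.T.A B.T.l 1) π1
    (nr S.n) WX WY from ⟨W.mono, W.gy, W.tr, W.hk⟩)

theorem pkg_oper (hα : α ∈ Hd ℂ _ 2) : ∃ E : End (K ℂ (TopCat.ofHom h)), Oper h α E ∧
    ∀ WX WY, WLI B ph π1 WX WY → ∀ k, ∀ a ∈ WX k, act E a ∈ WX (k - 4) := by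
  have := P275S1.nx B
  obtain ⟨E, d1, d2⟩ := oper_of (pkg B hh D eH0 c0 c1) hα
  exact ⟨E, d1, fun WX WY W => d2 WX WY (pkg_wl hh D eH0 c0 c1 W)⟩

end fin

theorem sec_cls (e) : pb (sec B 0) (pb (iH S.n B.T.A B.T.l S.p) e) = B.cls e := pb_comp _ _ _

/-- **OPW** from the Hecke formula, the cohomology of the curve, and the weights -/
theorem opw_of (h : MV0 ∧ P275Z.LHP) (hk : ∀ (S : Sit) (T : S.Atl) [Hy T.A T.l S.n],
    HKF T.A T.l T.std.two) (cv : ∀ S : Sit, CURV S.C) (hw : WOU) : OPW (IsU h) := by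
  rintro S B h e hh - ⟨hy, _, Sy, κ, hS, hκ, h0, he⟩
  have ph : PH B.T.A B.T.l B.T.std.two := P275HE.phi_ok B.T.std.two hy.kur (P275HE.hty _)
  obtain ⟨me, ⟨D⟩⟩ := exists_dat (hk S B.T) (cv S) ph S.p hS hκ h0 he
  obtain ⟨π0, c0⟩ := car B (P275S1.s0 B)
  obtain ⟨π1, c1⟩ := car B (P275S1.s1 B)
  obtain ⟨E, d1, d2⟩ := pkg_oper hh D (sec_cls B e) c0 c1 (pb_mem _ me)
  refine ⟨E, d1, fun Y k w hk => ?_⟩
  obtain ⟨WY, W⟩ := hw S B ph π1 c1.sq (pkg_uni hh D (sec_cls B e) c0 c1) Y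
  have := d2 _ WY W _ w hk
  rwa [show 2 * k - 4 = 2 * (k - 2) by ring] at this

end Vale.Agent.P275OI
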