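import Vale.Agent.P275OI.Defs
import Vale.Agent.P275S.Kun

/-!
# P275, block OI: the top component along the curve, and the universal classes
-/

open CategoryTheory Topology Set Function
open Vale.Agent.P275GC (At)
open Vale.Agent.P275NA (Cy)
open Vale.Agent.P275MO Vale.Agent.P275Z Vale.Agent.P275MM Vale.Agent.P275XS
open P275S
open P275CC (Th LB Nc)

noncomputable section

set_option backward.isDefEq.respectTransparency false
set_option linter.unusedSectionVars false

namespace Vale.Agent.P275OI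

variable {C : Type} [TopologicalSpace C] [Nc C]

/-- `lam` is the coefficient of the fundamental class `κ` -/
structure Lam (κ : HH C) (lam : HH C →ₗ[ℂ] ℂ) : Prop where
  mem : κ ∈ Hd ℂ (TopCat.of C) 2
  cpt : CompactSpace C
  fd : Fd ℂ (TopCat.of C)
  one : lam κ = 1
  off : ∀ m, m ≠ 2 → ∀ c ∈ Hd ℂ (TopCat.of C) m, lam c = 0
  top : ∀ m, 2 ≤ m → ∀ c ∈ Hd ℂ (TopCat.of C) m, c = lam c • κ

theorem lam_of [CompactSpace C] (cv : CURV C) {κ : HH C} (hκ : κ ∈ Hd ℂ (TopCat.of C) 2)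
    (h0 : κ ≠ 0) {lam : HH C →ₗ[ℂ] ℂ} (l1 : lam κ = 1)
    (l0 : ∀ j ≤ 1, ∀ c ∈ Hd ℂ (TopCat.of C) j, lam c = 0) : Lam κ lam := by
  obtain ⟨ι, _, b, dg, top, h1, h2, h3, h4, h5⟩ := cv κ hκ h0
  have key : ∀ m, 2 ≤ m → ∀ c ∈ Hd ℂ (TopCat.of C) m, ∃ r : ℂ, c = r • KG.pr m κ := by
    intro m hm c hc
    obtain ⟨r, hr⟩ := h1.2 c
    refine ⟨r top, (KG.pr_of_mem hc).symm.trans ?_⟩
    rw [← hr, map_sum, Finset.sum_eq_single top (fun j _ hj => ?_) (by simp), map_smul, h3]
    rw [map_smul, KG.pr_of_ne (h2 j) (by have := h5 j hj; omega), smul_zero]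
  have z : ∀ m, 2 < m → ∀ c ∈ Hd ℂ (TopCat.of C) m, c = 0 := fun m hm c hc => by
    obtain ⟨r, hr⟩ := key m hm.le c hc
    rw [hr, KG.pr_of_ne hκ hm.ne, smul_zero]
  refine ⟨hκ, ‹_›, ⟨ι, _, dg, b, h2, h1⟩, l1, fun m hm c hc => ?_, fun m hm c hc => ?_⟩
  · rcases lt_or_gt_of_ne hm with e | e
    · exact l0 m (by omega) c hc
    · rw [z m e c hc, map_zero]
  · rcases hm.eq_or_lt with rfl | e
    · obtain ⟨r, rfl⟩ := key 2 le_rfl c hc
      rw [KG.pr_of_mem hκ, map_smul, l1, smul_eq_mul, mul_one]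
    · rw [z m e c hc, map_zero, zero_smul]

theorem pe_val {X Y : Type} [TopologicalSpace X] [TopologicalSpace Y] (f : C(X, Y))
    (a : th.E Y) : (th.pe f a).1 = pq f a.1 := rfl

section pq

variable {X Y : Type} [TopologicalSpace X] [TopologicalSpace Y] (f : C(X, Y))

theorem pq_zero : pq f 0 = 0 := map_zero (pq f)

theorem pq_add (a b : HH Y) : pq f (a + b) = pq f a + pq f b := map_add (pq f) a b

theorem pq_smul (r : ℂ) (a : HH Y) : pq f (r • a) = r • pq f a := map_smul (pq f) r a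

end pq

namespace Lam

variable {κ : HH C} {lam : HH C →ₗ[ℂ] ℂ} (L : Lam κ lam)
include L

theorem sq : κ * κ = 0 := by
  have h := mul_mem_Hd (l := 4) rfl L.mem L.mem
  rw [L.top 4 (by omega) _ h, L.off 4 (by omega) _ h, zero_smul]

theorem prd (X : Type) [TopologicalSpace X] [Nc X] :
    Prd ℂ (TopCat.ofHom ContinuousMap.fst : TopCat.of (X × C) ⟶ TopCat.of X)
      (TopCat.ofHom ContinuousMap.snd : TopCat.of (X × C) ⟶ TopCat.of C) :=
  have := L.cpt
  prd_fst (TopCat.of X) (TopCat.of C) L.fd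

/-- integration over the curve -/
def int (X : Type) [TopologicalSpace X] [Nc X] : HH (X × C) →ₗ[ℂ] HH X := (L.prd X).sl lam

variable {X Y : Type} [TopologicalSpace X] [Nc X] [TopologicalSpace Y] [Nc Y]

theorem int_mul (u : HH X) (v : HH C) :
    L.int X (pq ContinuousMap.fst u * pq ContinuousMap.snd v) = lam v • u := by
  refine ((L.prd X).sl_mul_left L.off even_two u _).trans ?_
  exact (congrArg (u * ·) ((L.prd X).sl_q lam v)).trans (by rw [mul_smul_comm, mul_one])

theorem int_low {a : HH (X × C)} (h : a ∈ Low1 X C) : L.int X a = 0 := by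
  induction h using Submodule.span_induction with
  | mem a ha =>
    obtain ⟨u, j, v, hj, hv, rfl⟩ := ha
    rw [L.int_mul, L.off j (by omega) v hv, zero_smul]
  | zero => exact map_zero _
  | add a b _ _ ha hb => rw [map_add, ha, hb, add_zero]
  | smul r a _ ha => rw [map_smul, ha, smul_zero]

omit L in
theorem swap {m j : ℤ} {c : HH C} {u : HH X} (hc : c ∈ Hd ℂ (TopCat.of C) m)
    (hu : u ∈ Hd ℂ (TopCat.of X) j) : pq ContinuousMap.snd c * pq ContinuousMap.fst u =
      ((m * j).negOnePow : ℤ) • (pq ContinuousMap.fst u * pq ContinuousMap.snd c) :=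
  mul_comm_Hd (X := TopCat.of (X × C)) (pb_mem (TopCat.ofHom ContinuousMap.snd) hc)
    (pb_mem (TopCat.ofHom ContinuousMap.fst) hu)

omit L in
theorem low {m : ℤ} {c : HH C} (hc : c ∈ Hd ℂ (TopCat.of C) m) (hm : m ≤ 1) (u : HH X) :
    pq ContinuousMap.snd c * pq ContinuousMap.fst u ∈ Low1 X C := by
  induction u using KG.ind_deg with
  | h0 =>
    rw [pq_zero, mul_zero]
    exact zero_mem _
  | hadd a b ha hb =>
    rw [pq_add, mul_add]
    exact add_mem ha hb
  | hmk j u hu =>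
    rw [swap hc hu]
    refine zsmul_mem (Submodule.subset_span ?_) _
    exact ⟨u, m, c, hm, hc, rfl⟩

theorem comm (u : HH X) : pq ContinuousMap.snd κ * pq ContinuousMap.fst u =
    pq ContinuousMap.fst u * pq ContinuousMap.snd κ := by
  induction u using KG.ind_deg with
  | h0 => rw [pq_zero, mul_zero, zero_mul]
  | hadd a b ha hb => rw [pq_add, mul_add, add_mul, ha, hb]
  | hmk j u hu =>
    rw [swap L.mem hu, Int.negOnePow_even _ (even_two.mul_right j), Units.val_one, one_smul]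

theorem topC (a : HH (X × C)) : TopC κ a (L.int X a) := by
  induction a using (L.prd X).ind with
  | h0 =>
    rw [TopC, map_zero (L.int X), pq_zero, zero_mul, sub_zero]
    exact zero_mem _
  | hadd a b ha hb =>
    rw [TopC, map_add (L.int X), pq_add, add_mul, add_sub_add_comm]
    exact add_mem ha hb
  | hm m c hc u =>
    refine Eq.subst (motive := TopC κ (pq ContinuousMap.snd c * pq ContinuousMap.fst u))
      ((L.prd X).sl_mul lam c u).symm ?_
    rcases le_or_gt m 1 with hm | hm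
    · rw [TopC, L.off m (by omega) c hc, zero_smul, pq_zero, zero_mul,
        sub_zero]
      exact low hc hm u
    · rw [TopC, pq_smul, smul_mul_assoc, ← L.comm, ← smul_mul_assoc,
        ← pq_smul, ← L.top m (by omega) c hc, sub_self]
      exact zero_mem _

theorem topC_iff {a : HH (X × C)} {b : HH X} : TopC κ a b ↔ L.int X a = b := by
  refine ⟨fun h => ?_, fun h => h ▸ L.topC a⟩
  have := L.int_low h
  rwa [map_sub, L.int_mul, L.one, one_smul, sub_eq_zero] at this

theorem int_pb (f : C(Y, X)) (a : HH (X × C)) :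
    L.int Y (pq (f.prodMap (ContinuousMap.id C)) a) = pq f (L.int X a) :=
  (L.prd X).sl_nat lam (L.prd Y) lam _ (TopCat.ofHom f) (𝟙 _) rfl rfl
    (fun c => congrArg lam (pb_id c)) a

variable {n : ℕ} {A : At C} {l : Cy A ℂ} [Hy A l n] {τ τ' : Ty n}

/-- the class of a system of families -/
def cE (S : Sys A l τ X) : HH X := L.int X (th.p2 S.tb.End).1

theorem isE_iff {S : Sys A l τ X} {e : HH X} : IsE mv0_lhp S κ e ↔ L.cE S = e := L.topC_iff

theorem cE_mem (S : Sys A l τ X) : L.cE S ∈ Hd ℂ (TopCat.of X) 2 :=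
  (L.prd X).sl_mem L.off (m := 4) rfl (KG.mem_deg_iff_pr.2 (Th.dg_p2 (τ := th) S.tb.End))

theorem cE_pb (S : Sys A l τ X) (g : C(Y, X)) : L.cE (S.pb g) = pq g (L.cE S) := by
  rw [cE, cE, Sys.pb_tb, Th.p2_end_pb, pe_val, L.int_pb]

theorem cE_iso {S : Sys A l τ X} {S' : Sys A l τ' X} (h : S.tb.End.Iso S'.tb.End) :
    L.cE S = L.cE S' := congrArg (fun v : th.E (X × C) => L.int X v.1) (Th.p2_iso h)

theorem eP (hn : 2 ≤ n) (p : C) {S : Sys A l (tauX n) (Mod A l (tauX n))} (hS : S.f = id) :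
    pb (iP n A l) (pb (i0 A l hn) (L.cE (univ A l (tauY hn)))) =
      pb (pP n A l p) (pb (iH n A l p) (L.cE S)) := by
  rw [pb_comp, pb_comp]
  refine (L.cE_pb _ (iP n A l ≫ i0 A l hn).hom).symm.trans
    (Eq.trans ?_ (L.cE_pb S (pP n A l p ≫ iH n A l p).hom))
  refine (L.cE_iso (S' := (univ A l (tauZ n (nr n))).ty (τ' := tauY hn) le_rfl (nk_le_qY _))
    (Sys.end_iso (funext fun t => ?_))).trans (L.cE_iso (end_iso_mv
      (S := (univ A l (tauZ n (nr n))).ty (τ' := tauX n) le_top nk_top.le) fun t => ?_))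
  · refine (congrFun (univ_pb_f _) t).trans ?_
    change _ = P275MB.ty (τ := tauZ n (nr n)) (τ' := tauY hn) le_rfl (nk_le_qY _)
      ((univ A l _).f t)
    rw [univ_f]
    obtain ⟨z, rfl⟩ := pt_surj t
    rfl
  · change mvp (S.f _).x (fg n A l ((univ A l (tauZ n (nr n))).f t)) = S.f _
    rw [hS, univ_f]
    exact congrArg (mvp · _) (mvp_x _)

theorem prdH (p : C) : Prd ℂ (pX n A l p) (xx A l (tauX n)) :=
  have : Nc (XH n A l p) := Nc.cls (isClosed_eq P275MB.cont_x continuous_const)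
  ⟨(xs n A l p).isHomeomorph, inferInstance, inferInstance, L.cpt, L.fd⟩

theorem sl_fr (p : C) {S : Sys A l (tauX n) (Mod A l (tauX n))} (hS : S.f = id) :
    (L.prdH p).sl lam (th.p2 (univ A l (tauX n)).fr.End).1 = pb (iH n A l p) (L.cE S) := by
  have : Nc (XH n A l p) := Nc.cls (isClosed_eq P275MB.cont_x continuous_const)
  refine Eq.trans ?_ (L.cE_pb S (iH n A l p).hom)
  let F : C(Mod A l (tauX n), XH n A l p × C) := ⟨xs n A l p, (xs n A l p).continuous⟩
  have h0 : ∀ b : th.E (XH n A l p × C), (L.prdH p).sl lam (th.pe F b).1 = L.int _ b.1 :=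
    fun b => ((L.prd (XH n A l p)).sl_nat lam (L.prdH p) lam (TopCat.ofHom F) (𝟙 _) (𝟙 _) rfl rfl
      (fun c => congrArg lam (pb_id c)) b.1).trans (pb_id _)
  rw [cE, ← h0]
  refine congrArg (fun v : th.E (Mod A l (tauX n)) => (L.prdH p).sl lam v.1) ?_
  have h1 := Th.p2_iso (τ := th) (end_iso_mv (S := univ A l (tauX n))
    (S' := S.pb (pX n A l p ≫ iH n A l p).hom) fun t => by
      change mvp (S.f _).x ((univ A l _).f t) = S.f _
      rw [hS, univ_f]
      exact congrArg (mvp · _) (mvp_x _))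
  rw [Th.p2_li (univ A l (tauX n)).fr_pole.li, Th.p2_end_pb, h1, Sys.pb_tb, Sys.pb_tb,
    Th.p2_end_pb, Th.p2_end_pb, ← Th.pe_comp, ← Th.pe_comp]
  refine congrArg (th.pe · _) (ContinuousMap.ext fun t => Prod.ext rfl ?_)
  exact congrArg Mod.x (congrFun (univ_f A l _) t)

end Lam

end Vale.Agent.P275OI
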