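import Vale.Agent.P275OI.Pk
import Vale.Agent.P275CM.Hkf
import Vale.Agent.P275NM.Crv

/-!
# P275, block OI: the operator from the curve facts and the weights
-/

namespace Vale.Agent.P275OI

open Vale.Agent.P275Z

theorem opw_fin (h : MV0 ∧ LHP) (cv : ∀ S : Sit, CURV S.C)
    (op : ∀ (S : Sit) (T : S.Atl), P275CM.OP T.A) (hw : WOU) : OPW (IsU h) :=
  opw_of h (fun S T _ => P275CM.hkf T.std _ (cv S) (op S T)) cv hw

theorem curv_sit (S : Sit) : CURV S.C := (P275AD.atl S).elim fun T => P275NM.curv T.A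

theorem opw_op (h : MV0 ∧ LHP) (op : ∀ (S : Sit) (T : S.Atl), P275CM.OP T.A) (hw : WOU) :
    OPW (IsU h) := opw_fin h curv_sit op hw

end Vale.Agent.P275OI
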