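import Vale.Agent.P275OI.Defs
import Vale.Agent.P275HN.Fin
import Vale.Agent.P275HN.Fb
import Vale.Agent.P275HE.Fin
import Vale.Agent.P275FS.Ub
import Vale.Agent.P275LM.Nil

/-!
# P275, block OI: the ray and the two ends
-/

open CategoryTheory Topology Set Function
open Vale.Agent.P275GC (At)
open Vale.Agent.P275NA (Cy)
open Vale.Agent.P275MO Vale.Agent.P275Z Vale.Agent.P275MM
open Vale.Agent.P275MB (cont_lam cont_η cont_x)
open Vale.Agent.P275HE (phi o0 Fb hty)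
open Vale.Agent.P275HN (hY M0 Sb fb_iff)
open P275S P275OP
open P275CC (Nc)

noncomputable section

set_option backward.isDefEq.respectTransparency false
set_option linter.unusedSectionVars false

namespace Vale.Agent.P275OI

theorem exists_car {X B E E' : TopCat.{0}} (p : E ⟶ B) {s : X ⟶ B} {k : E' ⟶ E}
    (hs : IsEmbedding s) (hk : IsEmbedding k) (hr : range k = p ⁻¹' range s) :
    ∃ π : E' ⟶ X, Car p s π k := by
  choose π hπ using fun y => hr.subset (mem_range_self y)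
  refine ⟨TopCat.ofHom ⟨π, hs.continuous_iff.2 ?_⟩, hs, hk, hr, ?_⟩
  · exact (p.hom.continuous.comp k.hom.continuous).congr fun y => (hπ y).symm
  · ext y
    exact hπ y

section sub

variable {X : Type} [TopologicalSpace X] {Y : TopCat.{0}} {s : Set X}

theorem inc_emb (s : Set X) : IsEmbedding (inc s) := IsEmbedding.subtypeVal

theorem inc_rng (s : Set X) : range (inc s) = s := Subtype.range_coe

theorem cod_ind {f : Y ⟶ TopCat.of X} (hf : IsInducing f) (h : ∀ y, f y ∈ s) :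
    IsInducing (cod f s h) := hf.codRestrict h

theorem cod_emb {f : Y ⟶ TopCat.of X} (hf : IsEmbedding f) (h : ∀ y, f y ∈ s) :
    IsEmbedding (cod f s h) := hf.codRestrict s h

theorem cod_rng (f : Y ⟶ TopCat.of X) (h : ∀ y, f y ∈ s) :
    range (cod f s h) = inc s ⁻¹' range f :=
  Set.ext fun _ => ⟨fun ⟨y, e⟩ => ⟨y, congrArg Subtype.val e⟩, fun ⟨y, e⟩ => ⟨y, Subtype.ext e⟩⟩

theorem nice_cls [Nc X] (h : IsClosed s) : Nice (sb s) := by
  have := Nc.cls h
  infer_instance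

end sub

variable {C : Type} [TopologicalSpace C] [Nc C] {n : ℕ} {A : At C} {l : Cy A ℂ} {hn : 2 ≤ n}
  {d : ℤ} {τ : Ty n}

theorem cont_zz : Continuous (zz : Mod A l (tauY hn) → ℂ) := (continuous_apply _).comp cont_η

theorem cl_sL (c : ℂ) : IsClosed (sL A l τ c) := isClosed_eq cont_lam continuous_const

theorem cl_sR : IsClosed (sR A l hn) := (cl_sL 0).inter
  ((isClosed_eq (Complex.continuous_re.comp cont_zz) continuous_const).inter
    (isClosed_le continuous_const (Complex.continuous_im.comp cont_zz)))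

variable (A l hn)

/-- `Rp ⟶ Tp` -/
def kR : sb (sRp A l hn) ⟶ sb (sTp A l hn) :=
  cod (inc _) _ fun y => ⟨congrArg Complex.im y.2.1, y.2.2.2⟩

/-- the Hitchin map on the ray -/
def gR : sb (sR A l hn) ⟶ TopCat.of (Sb A n (tauY hn).m) :=
  TopCat.ofHom ⟨fun m => hY m.1, P275HB.cont_hY.comp
    (continuous_subtype_val.subtype_mk (p := fun y : Mod A l (tauY hn) => y.lam = 0)
      fun m => m.2.1)⟩

/-- the open part of the base -/
def sO : Set (Sb A n (tauY hn).m) := {s | 0 < (s.2.1 (0 : Fin 1)).im}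

variable {A l hn}

theorem zz_i0 (y : Mod A l (tauZ n 0)) : (i0 A l hn y : Mod A l (tauY hn)).η = 0 :=
  (range_ZY hn).subset (mem_range_self y)

theorem lam_i0 (y : Mod A l (tauZ n 0)) : (i0 A l hn y : Mod A l (tauY hn)).lam = y.lam :=
  ty_lam (τ := tauZ n 0) (τ' := tauY hn) le_rfl (nk_le_qY 0) y

theorem lam_iP (y : Mod A l (tauZ n (nr n))) : (iP n A l y : Mod A l (tauZ n 0)).lam = y.lam :=
  ty_lam (τ := tauZ n (nr n)) (τ' := tauZ n 0) le_rfl (nk_anti (Nat.zero_le _)) y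

theorem lam_fg (y : Mod A l (tauZ n (nr n))) : (fg n A l y : Mod A l (tauX n)).lam = y.lam :=
  ty_lam (τ := tauZ n (nr n)) (τ' := tauX n) le_top nk_top.le y

theorem lam_pP (p : C) (y : Mod A l (tauZ n (nr n))) : (pP n A l p y).1.lam = y.lam :=
  (P275XS.mvp_lam _).trans (lam_fg y)

variable (A l hn) in
/-- `Y ⟶ R` -/
def iY : sb (sL A l (tauZ n 0) 0) ⟶ sb (sR A l hn) :=
  cod (inc _ ≫ i0 A l hn) _ fun y => ⟨(lam_i0 y.1).trans y.2,
    congrArg Complex.re (congrFun (zz_i0 y.1) _),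
    (congrArg Complex.im (congrFun (zz_i0 y.1) _)).ge⟩

theorem rng_iY : range (iY A l hn) = gR A l hn ⁻¹' {s | s.2.1 = 0} := by
  refine Subset.antisymm (range_subset_iff.2 fun y => zz_i0 y.1) fun m hm => ?_
  obtain ⟨y, e⟩ := (range_ZY hn).superset (show m.1.η = 0 from hm)
  exact ⟨⟨y, (lam_i0 y).symm.trans ((congrArg Mod.lam e).trans m.2.1)⟩, Subtype.ext e⟩

theorem rng_jR : range (jR A l hn) = gR A l hn ⁻¹' sO A hn :=
  Set.ext fun m => ⟨fun ⟨y, e⟩ => e ▸ y.2.2.2, fun h => ⟨⟨m.1, m.2.1, m.2.2.1, h⟩, rfl⟩⟩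

theorem emb_jR : IsEmbedding (jR A l hn) := cod_emb (inc_emb _) _

theorem rng_eL (c : ℂ) : range (eL n A l c) = inc _ ⁻¹' range (iP n A l) :=
  Set.ext fun m => ⟨fun ⟨y, e⟩ => ⟨y.1, congrArg Subtype.val e⟩,
    fun ⟨y, e⟩ => ⟨⟨y, (lam_iP y).symm.trans ((congrArg Mod.lam e).trans m.2)⟩, Subtype.ext e⟩⟩

theorem pr_gR (hS : Std A l n d) : IsProperMap (gR A l hn) :=
  (P275HN.proper hS (P275HN.coc (le_refl (tauY hn).H))).comp
    (isProperMap_of_comp_of_inj (f := fun m : sR A l hn => (⟨m.1, m.2.1⟩ : M0 A l (tauY hn)))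
      (continuous_subtype_val.subtype_mk _) continuous_subtype_val
      cl_sR.isClosedEmbedding_subtypeVal.isProperMap Subtype.val_injective)

theorem itr_val (ph : PH A l hn) (k : ℕ) (m : sTp A l hn) :
    (itr (φ1 ph) k m).1 = (phi (o0 hn))^[k] m.1 := by
  induction k generalizing m with
  | zero => rfl
  | succ k ih => exact ih (φ1 ph m)

theorem itr_hY (hS : Std A l n d) (ph : PH A l hn) (k : ℕ) (m : sTp A l hn) (h : m.1.lam = 0) :
    (itr (φ1 ph) k m).1.lam = 0 ∧ hY (itr (φ1 ph) k m).1 = hY m.1 := by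
  induction k generalizing m with
  | zero => exact ⟨h, rfl⟩
  | succ k ih =>
    have h1 : (φ1 ph m).1.lam = 0 := (ph.lam _).trans h
    exact ⟨(ih _ h1).1, (ih _ h1).2.trans ((fb_iff hS h1 h).2 (ph.fib _ (sTp_om m.2) h))⟩

theorem mem_sRp {m m₀ : Mod A l (tauY hn)} (h : m₀ ∈ sRp A l hn) (h0 : m.lam = 0)
    (e : m.η = m₀.η) : m ∈ sRp A l hn := ⟨h0, by rw [zz, e]; exact h.2⟩

/-- the Hecke map on the ray -/
def ΦR (hS : Std A l n d) (ph : PH A l hn) : sb (sRp A l hn) ⟶ sb (sRp A l hn) :=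
  cod (kR A l hn ≫ itr (φ1 ph) n ≫ jT A l hn) _ fun y =>
    mem_sRp y.2 (itr_hY hS ph n (kR A l hn y) y.2.1).1
      (congrArg (·.2.1) (itr_hY hS ph n (kR A l hn y) y.2.1).2)

theorem ΦR_g (hS : Std A l n d) (ph : PH A l hn) :
    ΦR hS ph ≫ jR A l hn ≫ gR A l hn = jR A l hn ≫ gR A l hn := by
  ext1 y
  exact (itr_hY hS ph n (kR A l hn y) y.2.1).2

variable [hy : Hy A l n]

theorem cl_i0 : IsClosedEmbedding (i0 A l hn) :=
  ty_emb (τ := tauZ n 0) (τ' := tauY hn) le_rfl (nk_le_qY 0) le_rfl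

theorem cl_iP : IsClosedEmbedding (iP n A l) :=
  ty_emb (τ := tauZ n (nr n)) (τ' := tauZ n 0) le_rfl (nk_anti (Nat.zero_le _)) le_rfl

theorem cl_eL (c : ℂ) : IsClosedEmbedding (eL n A l c) :=
  ⟨cod_emb (f := inc _ ≫ iP n A l) (cl_iP.isEmbedding.comp (inc_emb (sL A l (tauZ n (nr n)) c))) _,
    rng_eL (A := A) (l := l) c ▸ cl_iP.isClosed_range.preimage (inc _).hom.continuous⟩

theorem fib (hS : Std A l n d) (ph : PH A l hn) : ∃ b : ℤ, ∀ s ∈ sO A hn,
    ∃ (F : TopCat.{0}) (i : F ⟶ sb (sRp A l hn)) (φ : F ⟶ F), IsInducing i ∧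
      range i = (jR A l hn ≫ gR A l hn) ⁻¹' {s} ∧ φ ≫ i = i ≫ ΦR hS ph ∧
      φ.hom.Homotopic (ContinuousMap.id F) ∧ ∀ m, b < m → Hd ℂ F m = ⊥ := by
  obtain ⟨b, hb⟩ := P275FS.ub hy.kur (P275LM.att_hit hS (le_refl (tauY hn).H)
    (P275HN.proper hS (P275HN.coc le_rfl)))
  have := nice_cls (cl_sR (A := A) (l := l) (hn := hn))
  have hb := (hb (sb (sR A l hn)) Subtype.val continuous_subtype_val Subtype.val_injective).2
  refine ⟨b, fun s hs => ?_⟩
  by_cases e : ∃ m₀ : sRp A l hn, hY m₀.1 = s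
  · obtain ⟨m₀, rfl⟩ := e
    obtain ⟨f, f1, f2⟩ := P275HE.hot_ok hS hy.kur (hty hn) m₀.1 (sTp_om (kR A l hn m₀).2) m₀.2.1
    let i : sb (Fb m₀.1) ⟶ sb (sRp A l hn) :=
      cod (inc _) _ fun y => mem_sRp m₀.2 y.2.1 y.2.2.2.1
    have i1 : IsInducing i := cod_ind (inc_emb _).isInducing _
    have i2 : range i = (jR A l hn ≫ gR A l hn) ⁻¹' {hY m₀.1} := by
      rw [cod_rng, inc_rng]
      exact Set.ext fun m => (fb_iff hS m.2.1 m₀.2.1).symm
    refine ⟨_, i, TopCat.ofHom f, i1, i2, ?_, f2, hb _ (i ≫ jR A l hn)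
      (emb_jR.isInducing.comp i1) ?_⟩
    · ext1 y
      exact Subtype.ext ((f1 y).trans (itr_val ph n (kR A l hn (i y))).symm)
    · have : range (i ≫ jR A l hn) = gR A l hn ⁻¹' {hY m₀.1} := by
        refine Subset.antisymm (range_subset_iff.2 fun y => i2.subset (mem_range_self y))
          fun m hm => ?_
        obtain ⟨y, rfl⟩ := rng_jR.superset (show gR A l hn m ∈ sO A hn from hm.symm ▸ hs)
        obtain ⟨z, rfl⟩ := i2.superset hm
        exact ⟨z, rfl⟩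
      exact this ▸ (pr_gR hS).isCompact_preimage isCompact_singleton
  · refine ⟨TopCat.of Empty, TopCat.ofHom ⟨Empty.elim, continuous_of_discreteTopology⟩, 𝟙 _,
      ⟨Subsingleton.elim _ _⟩, ?_, ?_, .refl _, fun m _ => eq_bot_iff.2 fun a _ => H_empty a⟩
    · exact Set.ext fun m => ⟨fun ⟨y, _⟩ => y.elim, fun h => (e ⟨m, h⟩).elim⟩
    · ext1 y
      exact y.elim

end Vale.Agent.P275OI
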